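import Crest.Agent.Lib.Bc.BernCert.Tree
/-! Data generated by gen.py (helper21): a bilinear form and its subdivision tree. -/
set_option autoImplicit false
namespace Crest.Agent.Lib.Bc.Q4II.BetaData

open Crest.Agent.Lib.Bc.BernCert

/-- the monomials -/
def monos : List Mon := [⟨5,0,0,0⟩,⟨1,0,0,1⟩,⟨2,0,1,0⟩,⟨3,1,0,0⟩,⟨0,1,1,0⟩,⟨1,2,0,0⟩]

/-- positive part of the coefficient matrix -/
def cp : List (List ℕ) := [[63,0,0,0,0,0],[3840,0,0,0,0,0],[0,0,0,0,0,0],[0,0,0,0,0,0],[0,0,0,0,0,0],[320,0,0,0,0,0]]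

/-- negative part of the coefficient matrix -/
def cm : List (List ℕ) := [[0,0,0,0,0,0],[0,0,0,0,0,0],[168,0,0,0,0,0],[108,0,0,0,0,0],[3072,0,0,0,0,0],[0,0,0,0,0,0]]

/-- the form -/
def cfg : Cfg := ⟨5, 110, 36, monos, cp, cm⟩

/-- the tree -/
def T : PT := PT.L

set_option maxRecDepth 1000000 in
theorem chk : check cfg T C4 C4 = true := by decide +kernel

end Crest.Agent.Lib.Bc.Q4II.BetaData
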